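import Vale.Agent.P340.Bdl.B1

/-!
The Barendregt-Geuvers-Klop conjecture: weak normalization implies strong normalization for every
pure type system. The sorts, the axioms and the rules are arbitrary.
-/

namespace Vale.Agent.Results.P340.BGK

open Vale.Agent.P340

universe u

/-- A pure type system is weakly normalizing if and only if it is strongly normalizing. -/
theorem result {S : Type u} (P : Spec S) : WN P ↔ SN P := main P

end Vale.Agent.Results.P340.BGK
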